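import Vale.Agent.P092.H99.P.Sh
import Vale.Agent.P092.SPT.X

/-!
P092, TEAM P, all amplifications (helper99): the four keys in the letters of SPT/X (picture
`RC.PicX`) from the two counts; port of H99/P/Key.
-/

set_option linter.all false

open scoped InnerProductSpace ENNReal LinearAlgebra.Projectivization Matrix
open Filter Topology ContinuousLinearMap MeasureTheory TopologicalSpace

namespace Vale.Agent.P092.H99.PT

open Vale.Agent.P092.SP
open Vale.Agent.P092.SP4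
open Vale.Agent.P092.SD (Ms UC)
open Vale.Agent.P092.RC (Cm TRN Moore GG PG YY y0)
open Vale.Agent.P092.H790.CT (PicL)
open Vale.Agent.P092.H790.CTA (ORBG SIZEG cnt_size of_poly csm conj_pow')
open Vale.Agent.P092.H124.KL (norm_adj')
open Vale.Agent.P092.H99.P

theorem picL_of_X {G Γ K : Type} [Group G] [TopologicalSpace G] [Group Γ]
    [NormedAddCommGroup K] [InnerProductSpace ℂ K] [CompleteSpace K] {π : G →* (K →L[ℂ] K)}
    {lam : Γ →* (K →L[ℂ] K)} {W : Set (K →L[ℂ] K)} {Ω : K} (h : RC.PicX π lam W Ω) :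
    PicL π lam W Ω := ⟨h.adjP, h.adjL, h.comm, h.Wadj, h.WP, h.WL, h.tr_adj⟩

section key

variable {k : Type} [NontriviallyNormedField k] [ProperSpace k] [MeasurableSpace k] [BorelSpace k]
  {μ : Measure k} [IsFiniteMeasureOnCompacts μ] [μ.IsOpenPosMeasure]
  {E Γ K : Type} [Group E] [TopologicalSpace E] [Group Γ] [NormedAddCommGroup K]
  [InnerProductSpace ℂ K] [CompleteSpace K] {w : kˣ} {𝒰 : Ultrafilter ℕ} {ι : S4 k →* E}
  {a : E →* PG k 4} {π : E →* (K →L[ℂ] K)} {lam : Γ →* (K →L[ℂ] K)}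
  {W : Set (K →L[ℂ] K)} {Ω : K} {m : Set Γ → (K →L[ℂ] K)} {q : Γ → S4 k}
  {Y Y' X X' : Type} [TopologicalSpace Y] [CompactSpace Y] [T2Space Y]
  [MulAction (S4 k) Y] [ContinuousConstSMul (S4 k) Y] [TopologicalSpace Y'] [CompactSpace Y']
  [T2Space Y'] [MulAction (S4 k) Y'] [ContinuousConstSMul (S4 k) Y'] [MulAction (S4 k) X]
  [MulAction (S4 k) X']

/-- **From the count to the key**, any wall. -/
theorem key_of_cnt (hPB : SP.X.PB μ w 𝒰 ι a π lam W Ω m q) {b : S4 k} {n : k → S4 k} (hn0 : n 0 = 1)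
    (hnc : Continuous n) (horb : ORB μ ι π lam W Ω b n)
    (hsz : SIZEG (ι b) π Ω m fun γ => nm (q γ)) {v0 : X} {v0' : X'}
    {NA : ℝ → ℝ → Set Y → Set Γ} {U : X → (C(Y, ℂ) →⋆ₐ[ℂ] (K →L[ℂ] K))}
    (hU : HFam 𝒰 b v0 ι π lam W m q NA U)
    {V : X' → (C(Y', ℂ) →⋆ₐ[ℂ] (K →L[ℂ] K))} (cmV : ∀ v f, Cm W (V v f))
    (covV : ∀ γ v f, lam γ * V v f * lam γ⁻¹ = V v (act (q γ) f))
    (pcovV : ∀ g v f, π (ι g) * V v f * π (ι g)⁻¹ = V (g • v) f)
    (g : S4 k) (hb : b • v0 = v0) (hb' : b • v0' = v0') (hn : ∀ s, n s • v0 = v0)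
    (hn' : ∀ s, n s • v0' = v0') {In : Y → Y' → Prop} (hIn : IsClosed {p : Y × Y' | In p.1 p.2})
    {D : Set C(Y', ℂ)} (hD : closure (Submodule.span ℂ D : Set C(Y', ℂ)) = Set.univ)
    (hc : Cnt q NA In D (U (g • v0)) (V (g • v0'))) {u h : C(Y, ℂ)} (ho : H796.Opp In u h)
    (f : C(Y', ℂ)) : U (g • v0) u * V (g • v0') f * U (g • v0) h = 0 := by
  haveI : IsTopologicalGroup E := hPB.adm.tg
  have hP := picL_of_X hPB.pic
  have hts : ∀ v : C(Y, ℂ), tsupport ⇑(star v) = tsupport ⇑v := fun v =>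
    H124.KL.tsupport_star v
  -- one function of `star D`
  have main : ∀ f ∈ D, U (g • v0) u * V (g • v0') (star f) * U (g • v0) h = 0 := by
    intro f hf
    have ho' : H796.Opp In u (star h) := by
      intro x hx x' hx'
      rw [hts] at hx'
      exact ho x hx x' hx'
    obtain ⟨A, hA, huA, hAf⟩ := exists_room hIn ho'
    obtain ⟨ρ, hρ, hρ1, horb⟩ := horb
    have hconj : ∀ β : S4 k, ι g * ι β * (ι g)⁻¹ = ι (g * β * g⁻¹) := by
      intro β
      rw [map_mul, map_mul, map_inv]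
    have hfix : ∀ {Z : Type} [MulAction (S4 k) Z] {β : S4 k} {z : Z}, β • z = z →
        (g * β * g⁻¹) • (g • z) = g • z := by
      intro Z _ β z hz
      rw [mul_smul, mul_smul, inv_smul_smul, hz]
    have hcomm : ∀ β : S4 k, β • v0 = v0 → β • v0' = v0' →
        Commute (V (g • v0') (star f) * U (g • v0) h) (π (ι g * ι β * (ι g)⁻¹)) := by
      intro β h1 h2
      rw [hconj]
      exact Commute.mul_left (commute_fix' pcovV (hfix h2) _)
        (commute_fix' hU.pcov (hfix h1) _)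
    have hCm : Cm W (V (g • v0') (star f) * U (g • v0) h) := fun w' hw' => by
      rw [mul_assoc, hU.cm (g • v0) h w' hw', ← mul_assoc, cmV (g • v0') (star f) w' hw',
        mul_assoc]
    rw [mul_assoc]
    refine zero_of_count' (μ := μ) (𝒰 : Filter ℕ) hPB.h𝒰 (b := ι b) (n := fun s : k => ι (n s))
      (ρ := ρ) (sz := fun γ => nm (q γ)) (g := ι g) (c := ‖u‖)
      (NA := fun R T => NA R T A) hP hPB.ms hPB.uc hρ hρ1 ?_ horb
      (size_trans hPB.ph) (fun γ => nm_pos _) hsz hCm (hcomm _ hb hb')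
      (fun s => hcomm _ (hn s) (hn' s)) ?_ ?_
    · have h1 : Continuous fun s : k => ι (n s) := hPB.adm.cι.comp hnc
      have h2 := h1.tendsto 0
      rw [hn0, map_one] at h2
      exact h2
    · intro ζ ε hε
      obtain ⟨R, hR⟩ := hU.dom g u A hA huA ζ ε hε
      refine ⟨R, fun T hT => (hR T hT).mono fun t ht => ?_⟩
      have e1 : ι (g * b ^ t * g⁻¹) = ι g * ι b ^ t * (ι g)⁻¹ := by
        rw [map_mul, map_mul, map_pow, map_inv]
      rw [e1] at ht
      exact ht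
    · intro R
      obtain ⟨T, hT, c, d, hc'⟩ := hc R A (star h) f hf hAf
      refine ⟨T, hT, c, d, fun J hJ S hS => ?_⟩
      have h2 := hc' J hJ S hS Ω
      rw [hPB.pic.nΩ, one_pow, mul_one] at h2
      refine le_trans (le_of_eq ?_) h2
      refine Finset.sum_congr rfl fun γ _ => ?_
      congr 1
      have e := norm_adj' (Ω := Ω) (H790.CT.lam_norm hP)
        (fun γ f => cov_inv' (q := q) (fun γ f => hU.cov γ (g • v0) f) γ f)
        (fun γ f => cov_inv' (q := q) (fun γ f => covV γ (g • v0') f) γ f) (star h) f γ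
      rw [star_star] at e
      exact e
  have hD' : Dense (Submodule.span ℂ ((fun g => star g) '' D) : Set C(Y', ℂ)) := by
    have hsp : (Submodule.span ℂ ((fun g => star g) '' D) : Set C(Y', ℂ)) =
        (fun g => star g) '' (Submodule.span ℂ D : Set C(Y', ℂ)) := by
      apply Set.Subset.antisymm
      · intro x hx
        refine Submodule.span_induction (p := fun x _ => x ∈ (fun g => star g) ''
          (Submodule.span ℂ D : Set C(Y', ℂ))) ?_ ?_ ?_ ?_ hx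
        · rintro _ ⟨y, hy, rfl⟩
          exact ⟨y, Submodule.subset_span hy, rfl⟩
        · exact ⟨0, Submodule.zero_mem _, star_zero _⟩
        · rintro _ _ _ _ ⟨y, hy, rfl⟩ ⟨y', hy', rfl⟩
          exact ⟨y + y', Submodule.add_mem _ hy hy', star_add _ _⟩
        · rintro c _ _ ⟨y, hy, rfl⟩
          refine ⟨star c • y, Submodule.smul_mem _ _ hy, ?_⟩
          change star (star c • y) = c • star y
          rw [star_smul, star_star]
      · rintro _ ⟨y, hy, rfl⟩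
        refine Submodule.span_induction (p := fun y _ => star y ∈
          (Submodule.span ℂ ((fun g => star g) '' D) : Set C(Y', ℂ))) ?_ ?_ ?_ ?_ hy
        · intro y hy
          exact Submodule.subset_span ⟨y, hy, rfl⟩
        · rw [star_zero]; exact Submodule.zero_mem _
        · intro y y' _ _ h1 h2
          rw [star_add]; exact Submodule.add_mem _ h1 h2
        · intro c y _ h1
          rw [star_smul]; exact Submodule.smul_mem _ _ h1
    rw [hsp]
    have hsurj : Function.Surjective fun g : C(Y', ℂ) => star g := fun g => ⟨star g, star_star g⟩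
    exact hsurj.denseRange.dense_image continuous_star (dense_iff_closure_eq.2 hD)
  refine H218.NC.mid_dense (V (g • v0')) (U (g • v0) u) (U (g • v0) h) hD' ?_ f
  rintro _ ⟨g', hg', rfl⟩
  exact main g' hg'

end key

section legs

variable {k : Type} [NontriviallyNormedField k] [ProperSpace k] [MeasurableSpace k] [BorelSpace k]
  {μ : Measure k} [IsFiniteMeasureOnCompacts μ] [μ.IsOpenPosMeasure]
  {E Γ K : Type} [Group E] [TopologicalSpace E] [Group Γ] [NormedAddCommGroup K]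
  [InnerProductSpace ℂ K] [CompleteSpace K] {w : kˣ} {𝒰 : Ultrafilter ℕ} {ι : S4 k →* E}
  {a : E →* PG k 4} {π : E →* (K →L[ℂ] K)} {lam : Γ →* (K →L[ℂ] K)}
  {W : Set (K →L[ℂ] K)} {Ω : K} {m : Set Γ → (K →L[ℂ] K)} {q : Γ → S4 k}

/-- straight leg, first key -/
theorem key1_straight (hc : Count1Stmt k)
    {Ec : YY k 3 → (C(YY k 3, ℂ) →⋆ₐ[ℂ] (K →L[ℂ] K))}
    {F : LL k → (C(LL k, ℂ) →⋆ₐ[ℂ] (K →L[ℂ] K))}
    (h : SP.X.LegC on μ w 𝒰 ι a π lam W Ω m q (NA1 q) (NA2 q) Ec F) : Key1 on Ec F := by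
  obtain ⟨D, hD, hc⟩ := hc
  intro c l hcl u g f ho
  obtain ⟨b, ν, h1, h2, h3⟩ := exists_proj hcl
  obtain ⟨γ, rfl, rfl⟩ := witt0 hcl
  exact key_of_cnt (μ := μ) h.base (n := Sh') Sh'_zero Sh'_cont h.base.orb1 h.base.size1
    (v0' := lE) h.e h.f.cm h.f.cov h.f.pcov γ (B1_pt0 w) (B1_lE w) Sh'_pt0 Sh'_lE on_closed hD
    (hc q h.base.ud _ (Ec b) (F ν) _ (h.pl _ _ h3) (h.pl _ _ h2) (h.pl _ _ h1)) ho g

/-- straight leg, second key -/
theorem key2_straight (hc : Count2Stmt k)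
    {Ec : YY k 3 → (C(YY k 3, ℂ) →⋆ₐ[ℂ] (K →L[ℂ] K))}
    {F : LL k → (C(LL k, ℂ) →⋆ₐ[ℂ] (K →L[ℂ] K))}
    (h : SP.X.LegC on μ w 𝒰 ι a π lam W Ω m q (NA1 q) (NA2 q) Ec F) : Key2 on Ec F := by
  obtain ⟨D, hD, hc⟩ := hc
  intro c l hcl u g f ho
  obtain ⟨b, ν, h1, h2, h3⟩ := exists_proj hcl
  obtain ⟨γ, rfl, rfl⟩ := witt2 hcl
  exact key_of_cnt (μ := μ) h.base (n := Lg) Lg_zero Lg_cont h.base.orb2 h.base.size2
    (v0' := pt 2) h.f h.e.cm h.e.cov h.e.pcov γ (B2_l0 w) (B2_pt2 w) Lg_l0 Lg_pt2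
    (In := flip on) (on_closed.preimage continuous_swap) hD
    (hc q h.base.ud (Ec b) _ _ (F ν) (h.pl _ _ h1) (h.pl _ _ h2) (h.pl _ _ h3)) ho g

/-- flipped leg, first key -/
theorem key1_flipped (hc : Count2Stmt k)
    {Ec : YY k 3 → (C(LL k, ℂ) →⋆ₐ[ℂ] (K →L[ℂ] K))}
    {F : LL k → (C(YY k 3, ℂ) →⋆ₐ[ℂ] (K →L[ℂ] K))}
    (h : SP.X.LegC (flip on) μ w 𝒰 ι a π lam W Ω m q (NA2 q) (NA1 q) Ec F) :
    Key1 (flip on) Ec F := by
  obtain ⟨D, hD, hc⟩ := hc
  intro c l hcl u g f ho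
  obtain ⟨b, ν, h1, h2, h3⟩ := exists_proj hcl
  obtain ⟨γ, rfl, rfl⟩ := witt0 hcl
  exact key_of_cnt (μ := μ) h.base (n := Sh') Sh'_zero Sh'_cont h.base.orb1 h.base.size1
    (v0' := lE) h.e h.f.cm h.f.cov h.f.pcov γ (B1_pt0 w) (B1_lE w) Sh'_pt0 Sh'_lE
    (In := flip on) (on_closed.preimage continuous_swap) hD
    (hc q h.base.ud (F ν) _ _ (Ec b) (PL.swap (h.pl _ _ h3)) (PL.swap (h.pl _ _ h2))
      (PL.swap (h.pl _ _ h1))) ho g

/-- flipped leg, second key -/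
theorem key2_flipped (hc : Count1Stmt k)
    {Ec : YY k 3 → (C(LL k, ℂ) →⋆ₐ[ℂ] (K →L[ℂ] K))}
    {F : LL k → (C(YY k 3, ℂ) →⋆ₐ[ℂ] (K →L[ℂ] K))}
    (h : SP.X.LegC (flip on) μ w 𝒰 ι a π lam W Ω m q (NA2 q) (NA1 q) Ec F) :
    Key2 (flip on) Ec F := by
  obtain ⟨D, hD, hc⟩ := hc
  intro c l hcl u g f ho
  obtain ⟨b, ν, h1, h2, h3⟩ := exists_proj hcl
  obtain ⟨γ, rfl, rfl⟩ := witt2 hcl
  exact key_of_cnt (μ := μ) h.base (n := Lg) Lg_zero Lg_cont h.base.orb2 h.base.size2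
    (v0' := pt 2) h.f h.e.cm h.e.cov h.e.pcov γ (B2_l0 w) (B2_pt2 w) Lg_l0 Lg_pt2
    (In := on) on_closed hD
    (hc q h.base.ud _ (F ν) (Ec b) _ (PL.swap (h.pl _ _ h1)) (PL.swap (h.pl _ _ h2))
      (PL.swap (h.pl _ _ h3))) ho g

end legs

section blocks

variable {k : Type} [NontriviallyNormedField k] [ProperSpace k] [MeasurableSpace k] [BorelSpace k]
  {μ : Measure k} [IsFiniteMeasureOnCompacts μ] [μ.IsOpenPosMeasure]

theorem key1Stmt (hc : Count1Stmt k) : SP.X.Key1Stmt k μ :=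
  fun w 𝒰 ι a π lam W Ω m q Ec F h => key1_straight (μ := μ) hc h

theorem key2Stmt (hc : Count2Stmt k) : SP.X.Key2Stmt k μ :=
  fun w 𝒰 ι a π lam W Ω m q Ec F h => key2_straight (μ := μ) hc h

theorem key1Stmt' (hc : Count2Stmt k) : SP.X.Key1Stmt' k μ :=
  fun w 𝒰 ι a π lam W Ω m q Ec F h => key1_flipped (μ := μ) hc h

theorem key2Stmt' (hc : Count1Stmt k) : SP.X.Key2Stmt' k μ :=
  fun w 𝒰 ι a π lam W Ω m q Ec F h => key2_flipped (μ := μ) hc h

end blocks

end Vale.Agent.P092.H99.PT
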